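import Vale.Agent.Lib.P235.Loc

/-!
# P235: the localized map, pairwise version
-/

namespace Vale.Agent.Lib.P235

open Finset

/-- **The localized map**, pairwise version. -/
theorem exists_loc' {V : Type*} [Fintype V] {I : Type} [Fintype I] (g : I → ℝ)
    (hg : ∀ i, 0 ≤ g i) (c : I → V → Prop) (rh : V → ℝ) (hrh : ∀ x, 0 ≤ rh x)
    {K : ℝ} (hK : 0 ≤ K) :
    ∃ (J : Type) (_ : Fintype J) (L : V → J → ℝ),
      (∀ x y d, |rh x - rh y| ≤ d → (d < rh x + rh y → cutd g c x y ≤ K * d) →
        ∑ j, |L x j - L y j| ≤ (6 + 21 / 2 * K) * d) ∧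
      ∀ x y D, 0 < D → D / 4 ≤ rh x → D ≤ cutd g c x y → D / 34 ≤ ∑ j, |L x j - L y j| := by
  classical
  set Z : Finset ℤ := Finset.univ.image (fun x => Int.log 2 (rh x)) with hZ
  have hE : ∀ x y (j : ℤ), 0 ≤ Real.exp (-(2 * cutd g c x y / (2:ℝ) ^ j)) ∧
      Real.exp (-(2 * cutd g c x y / (2:ℝ) ^ j)) ≤ 1 := by
    intro x y j
    refine ⟨(Real.exp_pos _).le, Real.exp_le_one_iff.mpr ?_⟩
    have h3 := cutd_nonneg hg c x y
    have h4 : 0 ≤ 2 * cutd g c x y / (2:ℝ) ^ j := by positivity
    linarith
  refine ⟨Z × (I → Bool), inferInstance, fun x q => LL g c rh x q.1 q.2, ?_, ?_⟩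
  · intro x y d h1 h2
    rw [sum_LL' g hg c rh Z x y]
    have hd0 : 0 ≤ d := (abs_nonneg _).trans h1
    have hcut := cutd_nonneg hg c x y
    by_cases hcase : d < rh x + rh y
    · have hle := h2 hcase
      set B := |rh x - rh y| + 7 / 4 * cutd g c x y with hBdef
      have hB : 0 ≤ B := by positivity
      have hTle : ∀ j ∈ Z, TT g c rh x y j ≤
          (if (2:ℝ) ^ j / 2 < rh x ∧ rh x < 4 * (2:ℝ) ^ j then B else 0) +
          (if (2:ℝ) ^ j / 2 < rh y ∧ rh y < 4 * (2:ℝ) ^ j then B else 0) := by
        intro j _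
        have hq : (0:ℝ) < (2:ℝ) ^ j := by positivity
        obtain ⟨e0, e1⟩ := hE x y j
        have e2 : (1 - Real.exp (-(2 * cutd g c x y / (2:ℝ) ^ j))) / 2 ≤ cutd g c x y / (2:ℝ) ^ j := by
          have := Real.add_one_le_exp (-(2 * cutd g c x y / (2:ℝ) ^ j))
          have e3 : 2 * cutd g c x y / (2:ℝ) ^ j = 2 * (cutd g c x y / (2:ℝ) ^ j) := by ring
          linarith
        have e4 : ∀ t, phi j t * ((1 - Real.exp (-(2 * cutd g c x y / (2:ℝ) ^ j))) / 2) ≤
            7 / 4 * cutd g c x y := by
          intro t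
          calc phi j t * ((1 - Real.exp (-(2 * cutd g c x y / (2:ℝ) ^ j))) / 2)
              ≤ (7 / 4 * (2:ℝ) ^ j) * (cutd g c x y / (2:ℝ) ^ j) :=
                mul_le_mul (phi_le' j t) e2 (by linarith) (by positivity)
            _ = 7 / 4 * cutd g c x y := by field_simp
        have e5 : |phi j (rh x) - phi j (rh y)| *
            ((1 + Real.exp (-(2 * cutd g c x y / (2:ℝ) ^ j))) / 2) ≤ |rh x - rh y| := by
          have := phi_lip j (rh x) (rh y)
          calc _ ≤ |rh x - rh y| * 1 := mul_le_mul this (by linarith) (by linarith) (abs_nonneg _)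
            _ = _ := mul_one _
        have ex := e4 (rh x)
        have ey := e4 (rh y)
        by_cases hax : (2:ℝ) ^ j / 2 < rh x ∧ rh x < 4 * (2:ℝ) ^ j
        · by_cases hay : (2:ℝ) ^ j / 2 < rh y ∧ rh y < 4 * (2:ℝ) ^ j
          · rw [if_pos hax, if_pos hay]
            simp only [TT, add_mul]
            have := abs_nonneg (rh x - rh y)
            linarith
          · rw [if_pos hax, if_neg hay]
            simp only [TT, add_mul]
            have hz := phi_eq_zero hay
            rw [hz] at e5 ⊢
            linarith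
        · by_cases hay : (2:ℝ) ^ j / 2 < rh y ∧ rh y < 4 * (2:ℝ) ^ j
          · rw [if_neg hax, if_pos hay]
            simp only [TT, add_mul]
            have hz := phi_eq_zero hax
            rw [hz] at e5 ⊢
            linarith
          · rw [if_neg hax, if_neg hay]
            simp only [TT]
            rw [phi_eq_zero hax, phi_eq_zero hay]
            simp
      have hs1 := sum_active Z (hrh x)
        (fun j => if (2:ℝ) ^ j / 2 < rh x ∧ rh x < 4 * (2:ℝ) ^ j then B else 0) hB
        (fun j hj => by simp only [if_pos hj]; exact le_rfl)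
        (fun j hj => by simp only [if_neg hj]; exact le_rfl)
      have hs2 := sum_active Z (hrh y)
        (fun j => if (2:ℝ) ^ j / 2 < rh y ∧ rh y < 4 * (2:ℝ) ^ j then B else 0) hB
        (fun j hj => by simp only [if_pos hj]; exact le_rfl)
        (fun j hj => by simp only [if_neg hj]; exact le_rfl)
      have hs3 := Finset.sum_le_sum hTle
      rw [Finset.sum_add_distrib] at hs3
      have hs4 := h1
      have hs5 : 6 * B ≤ (6 + 21 / 2 * K) * d := by
        rw [hBdef]
        nlinarith
      linarith
    · push Not at hcase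
      have hTle : ∀ j ∈ Z, TT g c rh x y j ≤
          (if (2:ℝ) ^ j / 2 < rh x ∧ rh x < 4 * (2:ℝ) ^ j then rh x else 0) +
          (if (2:ℝ) ^ j / 2 < rh y ∧ rh y < 4 * (2:ℝ) ^ j then rh y else 0) := by
        intro j _
        obtain ⟨e0, e1⟩ := hE x y j
        have ha := phi_nonneg j (rh x)
        have hb := phi_nonneg j (rh y)
        have hab : |phi j (rh x) - phi j (rh y)| ≤ phi j (rh x) + phi j (rh y) := by
          rw [abs_le]; constructor <;> linarith
        have e3 : TT g c rh x y j ≤ phi j (rh x) + phi j (rh y) := by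
          simp only [TT]
          calc _ ≤ (phi j (rh x) + phi j (rh y)) *
                ((1 + Real.exp (-(2 * cutd g c x y / (2:ℝ) ^ j))) / 2) +
                (phi j (rh x) + phi j (rh y)) *
                ((1 - Real.exp (-(2 * cutd g c x y / (2:ℝ) ^ j))) / 2) := by
                have := mul_le_mul_of_nonneg_right hab
                  (by linarith : 0 ≤ (1 + Real.exp (-(2 * cutd g c x y / (2:ℝ) ^ j))) / 2)
                linarith
            _ = _ := by ring
        have e4 : ∀ t, 0 ≤ t → phi j t ≤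
            (if (2:ℝ) ^ j / 2 < t ∧ t < 4 * (2:ℝ) ^ j then t else 0) := by
          intro t ht
          split_ifs with hact
          · exact phi_le j ht
          · exact (phi_eq_zero hact).le
        linarith [e4 _ (hrh x), e4 _ (hrh y)]
      have hs1 := sum_active Z (hrh x)
        (fun j => if (2:ℝ) ^ j / 2 < rh x ∧ rh x < 4 * (2:ℝ) ^ j then rh x else 0) (hrh x)
        (fun j hj => by simp only [if_pos hj]; exact le_rfl)
        (fun j hj => by simp only [if_neg hj]; exact le_rfl)
      have hs2 := sum_active Z (hrh y)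
        (fun j => if (2:ℝ) ^ j / 2 < rh y ∧ rh y < 4 * (2:ℝ) ^ j then rh y else 0) (hrh y)
        (fun j hj => by simp only [if_pos hj]; exact le_rfl)
        (fun j hj => by simp only [if_neg hj]; exact le_rfl)
      have hs3 := Finset.sum_le_sum hTle
      rw [Finset.sum_add_distrib] at hs3
      have : 0 ≤ K * d := mul_nonneg hK hd0
      nlinarith
  · intro x y D hD hx hcut
    rw [sum_LL' g hg c rh Z x y]
    have hxpos : 0 < rh x := by linarith
    set j := Int.log 2 (rh x) with hj
    have hjZ : j ∈ Z := Finset.mem_image.mpr ⟨x, Finset.mem_univ _, rfl⟩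
    have hL1 : (2:ℝ) ^ j ≤ rh x := by
      have := Int.zpow_log_le_self (R := ℝ) (b := 2) (by norm_num) hxpos
      exact_mod_cast this
    have hL2 : rh x < 2 * (2:ℝ) ^ j := by
      have := Int.lt_zpow_succ_log_self (R := ℝ) (b := 2) (by norm_num) (rh x)
      have h3 : (2:ℝ) ^ (j + 1) = 2 * (2:ℝ) ^ j := by
        rw [zpow_add_one₀ (by norm_num : (2:ℝ) ≠ 0)]; ring
      rw [← h3]
      exact_mod_cast this
    have hq : (0:ℝ) < (2:ℝ) ^ j := by positivity
    have hphi := phi_ge hL1 hL2
    have hTnn : ∀ i ∈ Z, 0 ≤ TT g c rh x y i := by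
      intro i _
      obtain ⟨e0, e1⟩ := hE x y i
      simp only [TT]
      have ha := phi_nonneg i (rh x)
      have hb := phi_nonneg i (rh y)
      have : 0 ≤ (1 - Real.exp (-(2 * cutd g c x y / (2:ℝ) ^ i))) / 2 := by linarith
      positivity
    refine le_trans ?_ (Finset.single_le_sum hTnn hjZ)
    set q := (2:ℝ) ^ j with hqdef
    have hqD : D / 8 ≤ q := by linarith
    have e1 : Real.exp (-(2 * cutd g c x y / q)) ≤ Real.exp (-(2 * D / q)) := by
      apply Real.exp_le_exp.mpr
      have : 2 * D / q ≤ 2 * cutd g c x y / q := by gcongr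
      linarith
    -- `1 - exp(-t) ≥ t / (1 + t)`
    have e2 : Real.exp (-(2 * D / q)) ≤ 1 / (1 + 2 * D / q) := by
      rw [Real.exp_neg, one_div]
      apply inv_anti₀
      · positivity
      · have := Real.add_one_le_exp (2 * D / q)
        linarith
    have e3 : D / 34 ≤ q / 2 * ((1 - 1 / (1 + 2 * D / q)) / 2) := by
      have h3 : 1 - 1 / (1 + 2 * D / q) = 2 * D / (q + 2 * D) := by
        field_simp
        ring
      rw [h3]
      have h4 : q / 2 * (2 * D / (q + 2 * D) / 2) = q * D / (2 * (q + 2 * D)) := by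
        field_simp
        
      rw [h4, div_le_div_iff₀ (by norm_num) (by positivity)]
      nlinarith
    have hb := phi_nonneg j (rh y)
    obtain ⟨f0, f1⟩ := hE x y j
    have e4 : q / 2 * ((1 - 1 / (1 + 2 * D / q)) / 2) ≤
        (phi j (rh x) + phi j (rh y)) * ((1 - Real.exp (-(2 * cutd g c x y / q))) / 2) := by
      apply mul_le_mul
      · linarith
      · linarith
      · have : Real.exp (-(2 * D / q)) ≤ 1 / (1 + 2 * D / q) := e2
        have h5 : 1 / (1 + 2 * D / q) ≤ 1 := by
          rw [div_le_one (by positivity)]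
          have : 0 ≤ 2 * D / q := by positivity
          linarith
        linarith
      · have := phi_nonneg j (rh x)
        linarith
    have e5 : 0 ≤ |phi j (rh x) - phi j (rh y)| *
        ((1 + Real.exp (-(2 * cutd g c x y / q))) / 2) := by positivity
    simp only [TT]
    linarith

end Vale.Agent.Lib.P235
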